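import Vale.Agent.P040.TwoBlock.Geometry

/-!
# P040: two blocks, odd `n`
-/

open Finset

namespace P040.TwoBlock

/-- `x` read cyclically from position `c` -/
def rot (n c : ℕ) (x : ℕ → Bool) (t : ℕ) : Bool := x ((c + t) % n)

lemma rot_rot (n c s : ℕ) (x : ℕ → Bool) (t : ℕ) :
    rot n c x ((s + t) % n) = rot n ((c + s) % n) x t := by
  simp only [rot]
  congr 1
  rw [Nat.add_mod_mod, Nat.mod_add_mod, Nat.add_assoc]

/-- interleaving same-coloured pairs of edges at two vertices -/
def pairCr (n : ℕ) (q : ℕ → ℕ) (p p' : ℕ) (x y : ℕ → Bool) : ℕ :=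
  ∑ i ∈ range n, ∑ j ∈ range n, ind (x i = y j ∧ Cross p (q i) p' (q j))

lemma pairCr_comm (n : ℕ) (q : ℕ → ℕ) (p p' : ℕ) (x y : ℕ → Bool) :
    pairCr n q p p' x y = pairCr n q p' p y x := by
  unfold pairCr
  rw [sum_comm]
  refine sum_congr rfl fun i _ => sum_congr rfl fun j _ => ?_
  have : (x j = y i ∧ Cross p (q j) p' (q i)) ↔ (y i = x j ∧ Cross p' (q i) p (q j)) := by
    rw [eq_comm (a := x j)]; unfold Cross; tauto
  exact if_congr this rfl rfl

lemma pairCount_le (k s c : ℕ) (hs : s ≤ k) (hc : c < 2 * k + 1) (q : ℕ → ℕ) (p p' : ℕ)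
    (x y : ℕ → Bool)
    (H : ∀ i j, i < 2 * k + 1 → j < 2 * k + 1 → Rel s i j →
      Cross p (q ((c + i) % (2 * k + 1))) p' (q ((c + j) % (2 * k + 1)))) :
    pairCount k s (fun i j => ind (rot (2 * k + 1) c x i = rot (2 * k + 1) c y j))
      ≤ pairCr (2 * k + 1) q p p' x y := by
  rw [pairCount_eq k s hs]
  unfold pairCr
  rw [← sum_range_rotate (fun i => ∑ j ∈ range (2 * k + 1),
    ind (x i = y j ∧ Cross p (q i) p' (q j))) _ c hc]
  refine sum_le_sum fun i hi => ?_
  rw [← sum_range_rotate (fun j => ind (x ((c + i) % (2 * k + 1)) = y j ∧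
    Cross p (q ((c + i) % (2 * k + 1))) p' (q j))) _ c hc]
  refine sum_le_sum fun j hj => ?_
  rw [mem_range] at hi hj
  by_cases hr : Rel s i j
  · rw [if_pos hr]
    have := H i j hi hj hr
    by_cases he : x ((c + i) % (2 * k + 1)) = y ((c + j) % (2 * k + 1)) <;>
      simp [ind, rot, he, this]
  · rw [if_neg hr]; exact Nat.zero_le _

/-- value of the vertex data in a slot: first coordinate on side `false`, second on side `true` -/
def slotVal (σ : Bool) (u : ℕ → Bool) (i j : ℕ) : Bool := if σ then u j else u i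

/-- weighted code distance -/
def dist (k s : ℕ) (σ τ : Bool) (u v : ℕ → Bool) : ℕ :=
  slotSum k s (fun i j => ind (slotVal σ u i j ≠ slotVal τ v i j))

lemma dist_comm (k s : ℕ) (σ τ : Bool) (u v : ℕ → Bool) :
    dist k s σ τ u v = dist k s τ σ v u := by
  unfold dist
  congr 1
  funext i j
  cases slotVal σ u i j <;> cases slotVal τ v i j <;> rfl

/-- Two vertices in one cyclic gap `c`, any transport coordinates. -/
lemma same_gap_first (k c : ℕ) (q : ℕ → ℕ) (hq : ∀ a b, a < b → b < 2 * k + 1 → q a < q b)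
    (p g p' g' : ℕ) (hg : IsGap (2 * k + 1) q p g) (hg' : IsGap (2 * k + 1) q p' g')
    (hc : g % (2 * k + 1) = c) (hf : First (2 * k + 1) p g p' g') (x y : ℕ → Bool) :
    k * k ≤ pairCr (2 * k + 1) q p p' x y
      + ∑ i ∈ range (2 * k + 1),
          tent k i * ind (rot (2 * k + 1) c x i ≠ rot (2 * k + 1) c y i) := by
  have hc' : c < 2 * k + 1 := hc ▸ Nat.mod_lt _ (by omega)
  have h := pair_bound k 0 (Nat.zero_le k) (rot (2 * k + 1) c x) (rot (2 * k + 1) c y)
  have h2 := pairCount_le k 0 c (Nat.zero_le k) hc' q p p' x y (fun i j hi hj hr =>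
    cross_same _ q hq p g p' g' c hg hg' hc hf i j hj (by unfold Rel at hr; omega))
  have h3 : slotSum k 0 (fun i j => ind (rot (2 * k + 1) c x i ≠ rot (2 * k + 1) c y j))
      = ∑ i ∈ range (2 * k + 1),
          tent k i * ind (rot (2 * k + 1) c x i ≠ rot (2 * k + 1) c y i) := by
    simp [slotSum]
  omega

lemma same_gap (k c : ℕ) (q : ℕ → ℕ) (hq : ∀ a b, a < b → b < 2 * k + 1 → q a < q b)
    (p g p' g' : ℕ) (hg : IsGap (2 * k + 1) q p g) (hg' : IsGap (2 * k + 1) q p' g')
    (hne : p ≠ p') (hc : g % (2 * k + 1) = c) (hc' : g' % (2 * k + 1) = c) (x y : ℕ → Bool) :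
    k * k ≤ pairCr (2 * k + 1) q p p' x y
      + ∑ i ∈ range (2 * k + 1),
          tent k i * ind (rot (2 * k + 1) c x i ≠ rot (2 * k + 1) c y i) := by
  rcases first_or _ p g p' g' hg.1 hg'.1 hne (hc.trans hc'.symm) with hf | hf
  · exact same_gap_first k c q hq p g p' g' hg hg' hc hf x y
  · have h := same_gap_first k c q hq p' g' p g hg' hg hc' hf y x
    rw [pairCr_comm]
    refine le_trans h (le_of_eq ?_)
    congr 1
    refine sum_congr rfl fun i _ => ?_
    congr 1
    cases rot (2 * k + 1) c x i <;> cases rot (2 * k + 1) c y i <;> rfl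

/-- Every pair: `k² ≤ crossings + code distance`. -/
lemma pair_code (k c s : ℕ) (hc : c < 2 * k + 1) (hs : s ≤ k) (q : ℕ → ℕ)
    (hq : ∀ a b, a < b → b < 2 * k + 1 → q a < q b)
    (p g p' g' : ℕ) (hg : IsGap (2 * k + 1) q p g) (hg' : IsGap (2 * k + 1) q p' g')
    (hne : p ≠ p') (σ τ : Bool)
    (hσ : if σ then 0 < s ∧ g % (2 * k + 1) = (c + s) % (2 * k + 1) else g % (2 * k + 1) = c)
    (hτ : if τ then 0 < s ∧ g' % (2 * k + 1) = (c + s) % (2 * k + 1) else g' % (2 * k + 1) = c)
    (x y : ℕ → Bool) :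
    k * k ≤ pairCr (2 * k + 1) q p p' x y
      + dist k s σ τ (rot (2 * k + 1) c x) (rot (2 * k + 1) c y) := by
  have mixed : ∀ (p g p' g' : ℕ), IsGap (2 * k + 1) q p g → IsGap (2 * k + 1) q p' g' →
      g % (2 * k + 1) = c → 0 < s → g' % (2 * k + 1) = (c + s) % (2 * k + 1) →
      ∀ x y : ℕ → Bool, k * k ≤ pairCr (2 * k + 1) q p p' x y
        + dist k s false true (rot (2 * k + 1) c x) (rot (2 * k + 1) c y) := by
    intro p g p' g' hg hg' h1 hs0 h2 x y
    have h := pair_bound k s hs (rot (2 * k + 1) c x) (rot (2 * k + 1) c y)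
    have h' := pairCount_le k s c hs hc q p p' x y (fun i j hi hj hr =>
      cross_mixed _ q hq p g p' g' c s hg hg' h1 hs0 (by omega) h2 i j hi hj hr)
    have h'' : dist k s false true (rot (2 * k + 1) c x) (rot (2 * k + 1) c y)
        = slotSum k s (fun i j => ind (rot (2 * k + 1) c x i ≠ rot (2 * k + 1) c y j)) := by
      simp [dist, slotVal]
    omega
  cases σ <;> cases τ <;>
    simp only [Bool.false_eq_true, if_false, if_true] at hσ hτ
  · have h := same_gap k c q hq p g p' g' hg hg' hne hσ hτ x y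
    have e : dist k s false false (rot (2 * k + 1) c x) (rot (2 * k + 1) c y)
        = slotSum k s
          (fun i _ => ind (rot (2 * k + 1) c x i ≠ rot (2 * k + 1) c y i)) := by
      simp [dist, slotVal]
    rw [e, slotSum_fst k s hs]; exact h
  · exact mixed p g p' g' hg hg' hσ hτ.1 hτ.2 x y
  · rw [pairCr_comm, dist_comm]
    exact mixed p' g' p g hg' hg hτ hσ.1 hσ.2 y x
  · have h := same_gap k _ q hq p g p' g' hg hg' hne hσ.2 hτ.2 x y
    have e : dist k s true true (rot (2 * k + 1) c x) (rot (2 * k + 1) c y)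
        = slotSum k s
          (fun _ j => ind (rot (2 * k + 1) c x j ≠ rot (2 * k + 1) c y j)) := by
      simp [dist, slotVal]
    rw [e, slotSum_snd k s hs]
    simp only [rot_rot]
    exact h

lemma bool_sq_bound {ι : Type*} (A : Finset ι) (f : ι → Bool) :
    ∑ a ∈ A, ∑ b ∈ A, ind (f a ≠ f b) ≤ 2 * (A.card ^ 2 / 4) := by
  set P := ∑ a ∈ A, ind (f a = true) with hP
  set Q := ∑ a ∈ A, ind (f a ≠ true) with hQ
  have hPQ : P + Q = A.card := by
    rw [hP, hQ, ← sum_add_distrib, card_eq_sum_ones]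
    exact sum_congr rfl fun a _ => ind_add_ind_not _
  have e : ∀ a ∈ A, (∑ b ∈ A, ind (f a ≠ f b))
      = ind (f a = true) * Q + ind (f a ≠ true) * P := by
    intro a _
    rw [hP, hQ, mul_sum, mul_sum, ← sum_add_distrib]
    refine sum_congr rfl fun b _ => ?_
    cases f a <;> cases f b <;> simp [ind]
  rw [sum_congr rfl e, sum_add_distrib, ← sum_mul, ← sum_mul, ← hP, ← hQ]
  have : 4 * (P * Q) ≤ A.card ^ 2 := by
    rw [← hPQ]; nlinarith [sq_nonneg ((P : ℤ) - Q)]
  have h4 : P * Q ≤ A.card ^ 2 / 4 := by omega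
  rw [Nat.mul_comm Q P]; omega

lemma slotSum_zero (k s : ℕ) : slotSum k s (fun _ _ => 0) = 0 := by simp [slotSum]

lemma slotSum_sum {ι : Type*} (k s : ℕ) (A : Finset ι) (F : ι → ℕ → ℕ → ℕ) :
    ∑ a ∈ A, slotSum k s (F a) = slotSum k s (fun i j => ∑ a ∈ A, F a i j) := by
  classical
  induction A using Finset.induction with
  | empty => simp [slotSum_zero]
  | insert a A ha ih => simp only [sum_insert ha]; rw [ih, slotSum_add]

lemma slotSum_mono (k s : ℕ) (F G : ℕ → ℕ → ℕ) (h : ∀ i j, F i j ≤ G i j) :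
    slotSum k s F ≤ slotSum k s G := by
  unfold slotSum
  gcongr <;> apply h

lemma slotSum_const (k s : ℕ) (hs : s ≤ k) (N : ℕ) :
    slotSum k s (fun _ _ => N) = k * k * N := by
  induction N with
  | zero => simp [slotSum_zero]
  | succ N ih => rw [slotSum_add k s (fun _ _ => N) (fun _ _ => 1), ih, slotSum_one k s hs]; ring

/-- The cut bound: twice the crossings dominate `k²·(m(m-1) - 2⌊m²/4⌋)`. -/
theorem odd_core (m k : ℕ) (P G : Fin m → ℕ) (q : ℕ → ℕ)
    (hq : ∀ a b, a < b → b < 2 * k + 1 → q a < q b) (hP : Function.Injective P)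
    (hG : ∀ a, IsGap (2 * k + 1) q (P a) (G a)) (x : Fin m → ℕ → Bool)
    (c s : ℕ) (hc : c < 2 * k + 1) (hs : s ≤ k)
    (hcs : ∀ a, G a % (2 * k + 1) = c ∨ G a % (2 * k + 1) = (c + s) % (2 * k + 1)) :
    k * k * (m * m) ≤ (∑ a, ∑ b, pairCr (2 * k + 1) q (P a) (P b) (x a) (x b))
      + k * k * (2 * (m ^ 2 / 4)) + k * k * m := by
  let σ : Fin m → Bool := fun a => decide (G a % (2 * k + 1) ≠ c)
  let u : Fin m → ℕ → Bool := fun a => rot (2 * k + 1) c (x a)
  have hσ : ∀ a, if σ a then 0 < s ∧ G a % (2 * k + 1) = (c + s) % (2 * k + 1)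
      else G a % (2 * k + 1) = c := by
    intro a
    rcases hcs a with h | h
    · simp [σ, h]
    · by_cases h' : G a % (2 * k + 1) = c
      · simp [σ, h']
      · simp only [σ, ne_eq, h', not_false_eq_true, decide_true, if_true]
        refine ⟨Nat.pos_of_ne_zero ?_, h⟩
        rintro rfl
        exact h' (h.trans (Nat.mod_eq_of_lt hc))
  have hpair : ∀ a b : Fin m, k * k ≤ pairCr (2 * k + 1) q (P a) (P b) (x a) (x b)
      + dist k s (σ a) (σ b) (u a) (u b) + (if a = b then k * k else 0) := by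
    intro a b
    by_cases h : a = b
    · rw [if_pos h]; omega
    · rw [if_neg h, Nat.add_zero]
      exact pair_code k c s hc hs q hq _ _ _ _ (hG a) (hG b) (fun e => h (hP e)) _ _
        (hσ a) (hσ b) _ _
  have hdist : ∑ a, ∑ b, dist k s (σ a) (σ b) (u a) (u b) ≤ k * k * (2 * (m ^ 2 / 4)) := by
    unfold dist
    simp only [slotSum_sum]
    rw [← slotSum_const k s hs]
    refine slotSum_mono k s _ _ fun i j => ?_
    have := bool_sq_bound (univ : Finset (Fin m)) (fun a => slotVal (σ a) (u a) i j)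
    simpa using this
  have hsum := sum_le_sum fun a (_ : a ∈ (univ : Finset (Fin m))) =>
    sum_le_sum fun b (_ : b ∈ (univ : Finset (Fin m))) => hpair a b
  simp only [sum_add_distrib, sum_ite_eq, mem_univ, if_true, sum_const, card_univ,
    Fintype.card_fin, smul_eq_mul] at hsum
  calc k * k * (m * m) = m * (m * (k * k)) := by ring
    _ ≤ _ := hsum
    _ ≤ _ := by rw [Nat.mul_comm m (k * k)]; omega

end P040.TwoBlock
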