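import Vale.Agent.P040.TwoBlock.Transport

/-!
# P040: from positions on the line to the combinatorial coordinates
-/

open Finset

namespace P040.TwoBlock

/-- the chord `{p,q}` starts first and interleaves `{r,s}` -/
def Before (p q r s : ℕ) : Prop :=
  min p q < min r s ∧ min r s < max p q ∧ max p q < max r s

instance (p q r s : ℕ) : Decidable (Before p q r s) := by unfold Before; infer_instance

/-- the chords `{p,q}` and `{r,s}` interleave -/
def Cross (p q r s : ℕ) : Prop := Before p q r s ∨ Before r s p q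

instance (p q r s : ℕ) : Decidable (Cross p q r s) := by unfold Cross; infer_instance

/-- the relation counted by `pairCount` -/
def Rel (s i j : ℕ) : Prop := (j < i ∧ i < s) ∨ (s ≤ i ∧ i < j)

instance (s i j : ℕ) : Decidable (Rel s i j) := by unfold Rel; infer_instance

lemma pairCount_eq (k s : ℕ) (hs : s ≤ k) (F : ℕ → ℕ → ℕ) :
    pairCount k s F
      = ∑ i ∈ range (2 * k + 1), ∑ j ∈ range (2 * k + 1), if Rel s i j then F i j else 0 := by
  obtain ⟨M, hM⟩ : ∃ M, 2 * k + 1 = s + M := ⟨2 * k + 1 - s, by omega⟩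
  unfold pairCount
  rw [hM, Nat.add_sub_cancel_left, sum_range_add]
  congr 1
  · refine sum_congr rfl fun i hi => ?_
    rw [mem_range] at hi
    rw [← sum_filter]
    refine sum_congr ?_ fun _ _ => rfl
    ext j; rw [mem_filter, mem_range, mem_range]; unfold Rel; omega
  · refine sum_congr rfl fun i hi => ?_
    rw [mem_range] at hi
    rw [sum_range_add, sum_eq_zero (s := range s) (fun j hj => by
      rw [mem_range] at hj; rw [if_neg]; unfold Rel; omega), zero_add, ← sum_filter]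
    refine sum_congr ?_ fun _ _ => rfl
    ext j; simp [Rel]; omega

lemma sum_range_rotate (f : ℕ → ℕ) (n c : ℕ) (hc : c < n) :
    ∑ t ∈ range n, f ((c + t) % n) = ∑ t ∈ range n, f t := by
  obtain ⟨r, rfl⟩ : ∃ r, n = c + r := ⟨n - c, by omega⟩
  conv_rhs => rw [sum_range_add, add_comm]
  rw [show range (c + r) = range (r + c) by rw [Nat.add_comm], sum_range_add]
  congr 1
  · refine sum_congr rfl fun t ht => ?_
    rw [mem_range] at ht
    rw [Nat.mod_eq_of_lt (by omega)]
  · refine sum_congr rfl fun t ht => ?_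
    rw [mem_range] at ht
    rw [show c + (r + t) = t + (c + r) by omega, Nat.add_mod_right, Nat.mod_eq_of_lt (by omega)]

/-- `g` counts the increasing positions `q 0, …, q (n-1)` below `p`. -/
def IsGap (n : ℕ) (q : ℕ → ℕ) (p g : ℕ) : Prop :=
  g ≤ n ∧ ∀ t < n, (q t < p ∧ t < g) ∨ (p < q t ∧ g ≤ t)

/-- Linearised order of two vertices lying in one cyclic gap. -/
def First (n p g p' g' : ℕ) : Prop := (g = g' ∧ p < p') ∨ (g = n ∧ g' = 0)

lemma first_or (n p g p' g' : ℕ) (hg : g ≤ n) (hg' : g' ≤ n) (hne : p ≠ p')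
    (h : g % n = g' % n) : First n p g p' g' ∨ First n p' g' p g := by
  unfold First
  rcases eq_or_lt_of_le hg with h1 | h1 <;> rcases eq_or_lt_of_le hg' with h2 | h2
  · omega
  · subst h1; rw [Nat.mod_self, Nat.mod_eq_of_lt h2] at h; omega
  · subst h2; rw [Nat.mod_self, Nat.mod_eq_of_lt h1] at h; omega
  · rw [Nat.mod_eq_of_lt h1, Nat.mod_eq_of_lt h2] at h; omega

lemma mod_cases {n t : ℕ} (ht : t < 2 * n) :
    (t < n ∧ t % n = t) ∨ (n ≤ t ∧ t % n = t - n) := by
  rcases Nat.lt_or_ge t n with h | h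
  · exact Or.inl ⟨h, Nat.mod_eq_of_lt h⟩
  · exact Or.inr ⟨h, by rw [Nat.mod_eq_sub_mod h, Nat.mod_eq_of_lt (by omega)]⟩

lemma gap_mod {n g : ℕ} (hg : g ≤ n) : (g < n ∧ g % n = g) ∨ (g = n ∧ g % n = 0) := by
  rcases eq_or_lt_of_le hg with h | h
  · exact Or.inr ⟨h, by rw [h, Nat.mod_self]⟩
  · exact Or.inl ⟨h, Nat.mod_eq_of_lt h⟩

lemma mono_or {n : ℕ} {q : ℕ → ℕ} (hq : ∀ a b, a < b → b < n → q a < q b) {I J : ℕ}
    (hI : I < n) (hJ : J < n) :
    (I < J ∧ q I < q J) ∨ (I = J ∧ q I = q J) ∨ (J < I ∧ q J < q I) := by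
  rcases lt_trichotomy I J with h | h | h
  · exact Or.inl ⟨h, hq I J h hJ⟩
  · exact Or.inr (Or.inl ⟨h, by rw [h]⟩)
  · exact Or.inr (Or.inr ⟨h, hq J I h hI⟩)

lemma gap_mono {n : ℕ} {q : ℕ → ℕ} {p g p' g' : ℕ} (hg : IsGap n q p g)
    (hg' : IsGap n q p' g') : (g ≤ g' ∨ p' < p) ∧ (g' ≤ g ∨ p < p') := by
  constructor
  · rcases le_or_gt g g' with h | h
    · exact Or.inl h
    · right
      have h1 := hg.2 g' (by have := hg.1; omega)
      have h2 := hg'.2 g' (by have := hg.1; omega)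
      omega
  · rcases le_or_gt g' g with h | h
    · exact Or.inl h
    · right
      have h1 := hg.2 g (by have := hg'.1; omega)
      have h2 := hg'.2 g (by have := hg'.1; omega)
      omega

lemma cross_same (n : ℕ) (q : ℕ → ℕ) (hq : ∀ a b, a < b → b < n → q a < q b)
    (p g p' g' c : ℕ) (hg : IsGap n q p g) (hg' : IsGap n q p' g')
    (hc : g % n = c) (hf : First n p g p' g') (i j : ℕ) (hj : j < n) (hij : i < j) :
    Cross p (q ((c + i) % n)) p' (q ((c + j) % n)) := by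
  have gm := gap_mono hg hg'
  obtain ⟨hgn, hga⟩ := hg
  obtain ⟨hgn', hgb⟩ := hg'
  subst hc
  have hn : 0 < n := by omega
  have hcn : g % n < n := Nat.mod_lt _ hn
  rcases mod_cases (show g % n + i < 2 * n by omega) with ⟨hI, hI'⟩ | ⟨hI, hI'⟩ <;>
  rcases mod_cases (show g % n + j < 2 * n by omega) with ⟨hJ, hJ'⟩ | ⟨hJ, hJ'⟩ <;>
  · have o1 := hga _ (Nat.mod_lt (g % n + i) hn)
    have o2 := hga _ (Nat.mod_lt (g % n + j) hn)
    have o3 := hgb _ (Nat.mod_lt (g % n + i) hn)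
    have o4 := hgb _ (Nat.mod_lt (g % n + j) hn)
    have m := gap_mod hgn
    have o5 := mono_or hq (Nat.mod_lt (g % n + i) hn) (Nat.mod_lt (g % n + j) hn)
    unfold Cross Before
    unfold First at hf
    omega

lemma cross_mixed (n : ℕ) (q : ℕ → ℕ) (hq : ∀ a b, a < b → b < n → q a < q b)
    (p g p' g' c s : ℕ) (hg : IsGap n q p g) (hg' : IsGap n q p' g')
    (hc : g % n = c) (hs : 0 < s) (hsn : s < n) (hc' : g' % n = (c + s) % n)
    (i j : ℕ) (hi : i < n) (hj : j < n) (hij : Rel s i j) :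
    Cross p (q ((c + i) % n)) p' (q ((c + j) % n)) := by
  have gm := gap_mono hg hg'
  obtain ⟨hgn, hga⟩ := hg
  obtain ⟨hgn', hgb⟩ := hg'
  subst hc
  have hn : 0 < n := by omega
  have hcn : g % n < n := Nat.mod_lt _ hn
  have m := gap_mod hgn
  have m' := gap_mod hgn'
  rcases mod_cases (show g % n + s < 2 * n by omega) with ⟨hS, hS'⟩ | ⟨hS, hS'⟩ <;>
  rcases mod_cases (show g % n + i < 2 * n by omega) with ⟨hI, hI'⟩ | ⟨hI, hI'⟩ <;>
  rcases mod_cases (show g % n + j < 2 * n by omega) with ⟨hJ, hJ'⟩ | ⟨hJ, hJ'⟩ <;>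
  · rw [hS'] at hc'
    have o1 := hga _ (Nat.mod_lt (g % n + i) hn)
    have o2 := hga _ (Nat.mod_lt (g % n + j) hn)
    have o3 := hgb _ (Nat.mod_lt (g % n + i) hn)
    have o4 := hgb _ (Nat.mod_lt (g % n + j) hn)
    rcases hij with hr | hr <;>
    · have o5 := mono_or hq (Nat.mod_lt (g % n + i) hn) (Nat.mod_lt (g % n + j) hn)
      unfold Cross Before
      omega

end P040.TwoBlock
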