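import Vale.Agent.P040.TwoBlock.Core

/-!
# P040: Zarankiewicz's bound for two-page drawings with one class in two blocks
-/

open Finset

namespace P040.TwoBlock

/-- `⌊r/2⌋⌊(r-1)/2⌋` -/
def zd (r : ℕ) : ℕ := (r / 2) * ((r - 1) / 2)

/-- Crossings of the two-page drawing of `K_{m,n}` with the vertices of one class at the
positions `pa`, those of the other at `pb`, and each edge a semicircle on the page `page`:
unordered pairs of edges on the same page whose endpoints alternate, each counted once
(the first member is the edge starting further left). -/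
def crossings {m n : ℕ} (pa : Fin m → ℕ) (pb : Fin n → ℕ) (page : Fin m → Fin n → Bool) : ℕ :=
  ((univ : Finset ((Fin m × Fin n) × (Fin m × Fin n))).filter fun ef =>
    page ef.1.1 ef.1.2 = page ef.2.1 ef.2.2 ∧
      Before (pa ef.1.1) (pb ef.1.2) (pa ef.2.1) (pb ef.2.2)).card

/-- The cyclic gaps of the `b`-vertices that contain an `a`-vertex. -/
def gaps {m n : ℕ} (pa : Fin m → ℕ) (pb : Fin n → ℕ) : Finset ℕ :=
  univ.image fun a => (univ.filter fun i => pb i < pa a).card % n

lemma crossings_eq_sum {m n : ℕ} (pa : Fin m → ℕ) (pb : Fin n → ℕ)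
    (page : Fin m → Fin n → Bool) :
    crossings pa pb page
      = ∑ a, ∑ b, ∑ i, ∑ j, ind (page a i = page b j ∧ Before (pa a) (pb i) (pa b) (pb j)) := by
  unfold crossings
  rw [card_filter]
  simp only [Fintype.sum_prod_type, ind]
  exact sum_congr rfl fun a _ => sum_comm

lemma two_mul_crossings {m n : ℕ} (pa : Fin m → ℕ) (pb : Fin n → ℕ)
    (page : Fin m → Fin n → Bool) :
    2 * crossings pa pb page
      = ∑ a, ∑ b, ∑ i, ∑ j, ind (page a i = page b j ∧ Cross (pa a) (pb i) (pa b) (pb j)) := by
  rw [two_mul]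
  nth_rewrite 2 [crossings_eq_sum]
  rw [sum_comm (f := fun a b => ∑ i, ∑ j,
    ind (page a i = page b j ∧ Before (pa a) (pb i) (pa b) (pb j))), crossings_eq_sum,
    ← sum_add_distrib]
  refine sum_congr rfl fun a _ => ?_
  rw [← sum_add_distrib]
  refine sum_congr rfl fun b _ => ?_
  rw [sum_comm (f := fun i j => ind (page b i = page a j ∧ _)), ← sum_add_distrib]
  refine sum_congr rfl fun i _ => ?_
  rw [← sum_add_distrib]
  refine sum_congr rfl fun j _ => ?_
  have hx : ¬ (Before (pa a) (pb i) (pa b) (pb j) ∧ Before (pa b) (pb j) (pa a) (pb i)) := by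
    unfold Before; omega
  by_cases he : page a i = page b j
  · by_cases h1 : Before (pa a) (pb i) (pa b) (pb j) <;>
      by_cases h2 : Before (pa b) (pb j) (pa a) (pb i) <;>
      simp_all [ind, Cross]
  · simp [ind, he, Ne.symm he]

/-- The odd case. -/
theorem bound_odd (m k : ℕ) (pa : Fin m → ℕ) (pb : Fin (2 * k + 1) → ℕ)
    (hpa : Function.Injective pa) (hpb : Function.Injective pb) (hdis : ∀ a i, pa a ≠ pb i)
    (page : Fin m → Fin (2 * k + 1) → Bool) (hblock : (gaps pa pb).card ≤ 2) :
    zd m * zd (2 * k + 1) ≤ crossings pa pb page := by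
  let e := Tuple.sort pb
  have hmono : StrictMono (pb ∘ e) :=
    (Tuple.monotone_sort pb).strictMono_of_injective (hpb.comp e.injective)
  let q : ℕ → ℕ := fun t => if h : t < 2 * k + 1 then pb (e ⟨t, h⟩) else 0
  let x : Fin m → ℕ → Bool := fun a t => if h : t < 2 * k + 1 then page a (e ⟨t, h⟩) else false
  let G : Fin m → ℕ := fun a => (univ.filter fun i => pb i < pa a).card
  have hq : ∀ a b, a < b → b < 2 * k + 1 → q a < q b := by
    intro a b hab hb
    simp only [q, dif_pos hb, dif_pos (show a < 2 * k + 1 by omega)]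
    exact hmono hab
  have hG : ∀ a, IsGap (2 * k + 1) q (pa a) (G a) := by
    intro a
    have hcard : G a = (univ.filter fun t => pb (e t) < pa a).card := by
      simp only [G, card_filter]
      exact (Equiv.sum_comp e fun i => if pb i < pa a then 1 else 0).symm
    refine ⟨le_trans (card_le_univ _) (by simp), fun t ht => ?_⟩
    simp only [q, dif_pos ht]
    rcases lt_or_gt_of_ne (hdis a (e ⟨t, ht⟩)) with h | h
    · right
      refine ⟨h, ?_⟩
      rw [hcard]
      calc _ ≤ (Finset.Iio (⟨t, ht⟩ : Fin (2 * k + 1))).card := card_le_card fun u hu => by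
            simp only [mem_filter, mem_univ, true_and] at hu
            rw [Finset.mem_Iio]
            exact hmono.lt_iff_lt.1 (hu.trans h)
        _ = t := Fin.card_Iio _
    · left
      refine ⟨h, ?_⟩
      rw [hcard]
      calc t < t + 1 := Nat.lt_succ_self t
        _ = (Finset.Iic (⟨t, ht⟩ : Fin (2 * k + 1))).card := (Fin.card_Iic (⟨t, ht⟩ : Fin (2 * k + 1))).symm
        _ ≤ _ := card_le_card fun u hu => by
            rw [Finset.mem_Iic] at hu
            simp only [mem_filter, mem_univ, true_and]
            exact lt_of_le_of_lt (hmono.monotone hu) h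
  have hsum : ∀ a b, pairCr (2 * k + 1) q (pa a) (pa b) (x a) (x b)
      = ∑ i, ∑ j, ind (page a i = page b j ∧ Cross (pa a) (pb i) (pa b) (pb j)) := by
    intro a b
    unfold pairCr
    rw [← Equiv.sum_comp e, ← Fin.sum_univ_eq_sum_range]
    refine sum_congr rfl fun i _ => ?_
    rw [← Equiv.sum_comp e, ← Fin.sum_univ_eq_sum_range]
    refine sum_congr rfl fun j _ => ?_
    simp only [q, x, dif_pos i.isLt, dif_pos j.isLt, Fin.eta]
  obtain ⟨c, s, hc, hs, hcs⟩ : ∃ c s, c < 2 * k + 1 ∧ s ≤ k ∧
      ∀ a, G a % (2 * k + 1) = c ∨ G a % (2 * k + 1) = (c + s) % (2 * k + 1) := by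
    have hmem : ∀ a, G a % (2 * k + 1) ∈ gaps pa pb := fun a =>
      mem_image_of_mem _ (mem_univ a)
    have hlt : ∀ g ∈ gaps pa pb, g < 2 * k + 1 := by
      intro g hg
      obtain ⟨a, -, rfl⟩ := mem_image.1 hg
      exact Nat.mod_lt _ (by omega)
    obtain ⟨g0, g1, h0, h1, hsub⟩ : ∃ g0 g1, g0 < 2 * k + 1 ∧ g1 < 2 * k + 1 ∧
        ∀ g ∈ gaps pa pb, g = g0 ∨ g = g1 := by
      rcases (gaps pa pb).eq_empty_or_nonempty with hS | ⟨g0, hg0⟩
      · exact ⟨0, 0, by omega, by omega, by simp [hS]⟩
      · rcases ((gaps pa pb).erase g0).eq_empty_or_nonempty with hS | ⟨g1, hg1⟩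
        · refine ⟨g0, g0, hlt _ hg0, hlt _ hg0, fun g hg => Or.inl ?_⟩
          by_contra hne
          have := mem_erase.2 ⟨hne, hg⟩
          simp [hS] at this
        · refine ⟨g0, g1, hlt _ hg0, hlt _ (mem_of_mem_erase hg1), fun g hg => ?_⟩
          by_contra hne
          push Not at hne
          have hsub : ({g0, g1, g} : Finset ℕ) ⊆ gaps pa pb := by
            intro v hv
            simp only [Finset.mem_insert, Finset.mem_singleton] at hv
            rcases hv with rfl | rfl | rfl
            exacts [hg0, mem_of_mem_erase hg1, hg]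
          have h3 : ({g0, g1, g} : Finset ℕ).card = 3 := by
            rw [card_insert_of_notMem, card_insert_of_notMem, card_singleton]
            · simp [Ne.symm hne.2]
            · simp [Ne.symm (ne_of_mem_erase hg1), Ne.symm hne.1]
          have := card_le_card hsub
          omega
    have key : ∀ u v : ℕ, u < 2 * k + 1 → v < 2 * k + 1 →
        (v = u + (if u ≤ v then v - u else 0) ∨ v < u) := by
      intro u v _ _; split_ifs <;> omega
    rcases mod_cases (show g1 + (2 * k + 1) - g0 < 2 * (2 * k + 1) by omega) with hd | hd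
    all_goals
      by_cases hk : (g1 + (2 * k + 1) - g0) % (2 * k + 1) ≤ k
      · refine ⟨g0, _, h0, hk, fun a => (hsub _ (hmem a)).imp id fun h => h.trans ?_⟩
        rcases mod_cases (show g0 + (g1 + (2 * k + 1) - g0) % (2 * k + 1) < 2 * (2 * k + 1) by
          omega) with h2 | h2 <;> omega
      · refine ⟨g1, 2 * k + 1 - (g1 + (2 * k + 1) - g0) % (2 * k + 1), h1, by omega,
          fun a => (hsub _ (hmem a)).symm.imp id fun h => h.trans ?_⟩
        rcases mod_cases (show g1 + (2 * k + 1 - (g1 + (2 * k + 1) - g0) % (2 * k + 1))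
          < 2 * (2 * k + 1) by omega) with h2 | h2 <;> omega
  have h := odd_core m k pa G q hq hpa hG x c s hc hs hcs
  simp only [hsum] at h
  rw [← two_mul_crossings] at h
  have hm : m * m = 2 * zd m + 2 * (m ^ 2 / 4) + m := by
    unfold zd
    rcases Nat.even_or_odd' m with ⟨l, rfl | rfl⟩
    · rcases Nat.eq_zero_or_pos l with rfl | hl
      · simp
      · obtain ⟨l, rfl⟩ : ∃ t, l = t + 1 := ⟨l - 1, by omega⟩
        rw [show 2 * (l + 1) / 2 = l + 1 by omega, show (2 * (l + 1) - 1) / 2 = l by omega,
          show (2 * (l + 1)) ^ 2 / 4 = (l + 1) ^ 2 by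
            rw [show (2 * (l + 1)) ^ 2 = 4 * (l + 1) ^ 2 by ring]; omega]
        ring
    · rw [show (2 * l + 1) / 2 = l by omega, show (2 * l + 1 - 1) / 2 = l by omega,
        show (2 * l + 1) ^ 2 / 4 = l * l + l by
          rw [show (2 * l + 1) ^ 2 = 4 * (l * l + l) + 1 by ring]; omega]
      ring
  have hk2 : zd (2 * k + 1) = k * k := by
    unfold zd
    rw [show (2 * k + 1) / 2 = k by omega, show (2 * k + 1 - 1) / 2 = k by omega]
  rw [hk2]
  rw [hm] at h
  nlinarith

lemma sum_succAbove {n : ℕ} (i : Fin (n + 1)) (f : Fin (n + 1) → ℕ) :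
    ∑ j, f (i.succAbove j) = ∑ j, ind (j ≠ i) * f j := by
  rw [Fin.sum_univ_succAbove (fun j => ind (j ≠ i) * f j) i]
  simp [ind, Fin.succAbove_ne]

/-- Deleting one vertex of the second class, summed over all choices. -/
lemma sum_delete {m n : ℕ} (pa : Fin m → ℕ) (pb : Fin (n + 1) → ℕ)
    (page : Fin m → Fin (n + 1) → Bool) :
    ∑ i : Fin (n + 1), crossings pa (pb ∘ i.succAbove) (fun a j => page a (i.succAbove j))
      = (n - 1) * crossings pa pb page := by
  simp only [crossings_eq_sum, Function.comp_apply, mul_sum]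
  rw [sum_comm]
  refine sum_congr rfl fun a _ => ?_
  rw [sum_comm]
  refine sum_congr rfl fun b _ => ?_
  set F : Fin (n + 1) → Fin (n + 1) → ℕ := fun j l =>
    ind (page a j = page b l ∧ Before (pa a) (pb j) (pa b) (pb l)) with hF
  calc ∑ i : Fin (n + 1), ∑ j : Fin n, ∑ l : Fin n, F (i.succAbove j) (i.succAbove l)
      = ∑ i, ∑ j, ∑ l, ind (j ≠ i) * (ind (l ≠ i) * F j l) := by
        refine sum_congr rfl fun i _ => ?_
        rw [sum_congr rfl fun j _ => sum_succAbove i (fun l => F (i.succAbove j) l),
          sum_succAbove i (fun j => ∑ l, ind (l ≠ i) * F j l)]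
        simp only [mul_sum]
    _ = ∑ j, ∑ l, ∑ i, ind (j ≠ i) * (ind (l ≠ i) * F j l) := by
        rw [sum_comm]; exact sum_congr rfl fun j _ => sum_comm
    _ = ∑ j, ∑ l, (n - 1) * F j l := by
        refine sum_congr rfl fun j _ => sum_congr rfl fun l _ => ?_
        by_cases hjl : j = l
        · subst hjl
          have : F j j = 0 := by
            simp only [hF, ind]; rw [if_neg]; unfold Before; omega
          simp [this]
        · simp only [← mul_assoc, ← sum_mul]
          congr 1
          have e1 : ∑ i, ind (j ≠ i) * ind (l ≠ i) = (univ \ {j, l}).card := by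
            rw [card_eq_sum_ones, sdiff_eq_filter, sum_filter]
            refine sum_congr rfl fun i _ => ?_
            by_cases h1 : j = i <;> by_cases h2 : l = i <;> simp_all [ind, eq_comm]
          rw [e1, card_sdiff_of_subset (subset_univ _), card_pair hjl]
          simp

/-- Deleting a vertex of the second class keeps at most two occupied gaps. -/
lemma gaps_delete {m n : ℕ} (pa : Fin m → ℕ) (pb : Fin (n + 1) → ℕ)
    (hdis : ∀ a i, pa a ≠ pb i) (i : Fin (n + 1)) :
    (gaps pa (pb ∘ i.succAbove)).card ≤ (gaps pa pb).card := by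
  set r := (univ.filter fun j => pb j < pb i).card with hr
  refine le_trans (card_le_card (t := (gaps pa pb).image fun R =>
    (R - (if r < R then 1 else 0)) % n) ?_) card_image_le
  intro g hg
  obtain ⟨a, -, rfl⟩ := mem_image.1 hg
  refine mem_image.2 ⟨_, mem_image_of_mem _ (mem_univ a), ?_⟩
  set G := (univ.filter fun j => pb j < pa a).card with hG
  have hsplit : G = (if pb i < pa a then 1 else 0)
      + (univ.filter fun j => (pb ∘ i.succAbove) j < pa a).card := by
    rw [hG, card_filter, card_filter,
      Fin.sum_univ_succAbove (fun j => if pb j < pa a then 1 else 0) i]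
    rfl
  have hiff : pb i < pa a ↔ r < G := by
    constructor
    · intro h
      refine card_lt_card ⟨fun u hu => ?_, fun hss => ?_⟩
      · simp only [mem_filter, mem_univ, true_and] at hu ⊢; exact hu.trans h
      · have := hss (by simp [h] : i ∈ univ.filter fun j => pb j < pa a)
        simp at this
    · intro h
      rcases lt_or_gt_of_ne (hdis a i) with h' | h'
      · exfalso
        have : G ≤ r := card_le_card fun u hu => by
          simp only [mem_filter, mem_univ, true_and] at hu ⊢; exact hu.trans h'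
        omega
      · exact h'
  have hGn : G ≤ n + 1 := le_trans (card_le_univ _) (by simp)
  have hrn : r < n + 1 := lt_of_lt_of_le
    (card_lt_card (ssubset_univ_iff.2 fun h => by
      have := h ▸ mem_univ i
      simp at this)) (by simp)
  rcases eq_or_lt_of_le hGn with h | h
  · have h1 : pb i < pa a := hiff.2 (by omega)
    rw [if_pos h1] at hsplit
    have h2 : (univ.filter fun j => (pb ∘ i.succAbove) j < pa a).card = n := by omega
    rw [h2, h, Nat.mod_self, Nat.mod_self]
    simp
  · rw [Nat.mod_eq_of_lt h]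
    congr 1
    by_cases h1 : pb i < pa a
    · rw [if_pos h1] at hsplit; rw [if_pos (hiff.1 h1)]; omega
    · rw [if_neg h1] at hsplit; rw [if_neg (fun h2 => h1 (hiff.2 h2))]; omega

/-- **Zarankiewicz's bound for two-page drawings with one class in at most two blocks.** -/
theorem main (m n : ℕ) (pa : Fin m → ℕ) (pb : Fin n → ℕ)
    (hpa : Function.Injective pa) (hpb : Function.Injective pb) (hdis : ∀ a i, pa a ≠ pb i)
    (page : Fin m → Fin n → Bool) (hblock : (gaps pa pb).card ≤ 2) :
    zd m * zd n ≤ crossings pa pb page := by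
  rcases Nat.even_or_odd' n with ⟨k, rfl | rfl⟩
  · rcases lt_or_ge k 2 with hk | hk
    · have : zd (2 * k) = 0 := by interval_cases k <;> decide
      simp [this]
    · obtain ⟨l, rfl⟩ : ∃ l, k = l + 2 := ⟨k - 2, by omega⟩
      have hdel : ∀ i : Fin (2 * (l + 1) + 1 + 1), zd m * zd (2 * (l + 1) + 1)
          ≤ crossings pa (pb ∘ i.succAbove) (fun a j => page a (i.succAbove j)) := fun i =>
        bound_odd m (l + 1) pa _ hpa (hpb.comp Fin.succAbove_right_injective)
          (fun a j => hdis a _) _ (le_trans (gaps_delete pa pb hdis i) hblock)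
      have h := sum_le_sum fun i (_ : i ∈ (univ : Finset (Fin (2 * (l + 1) + 1 + 1)))) => hdel i
      rw [sum_delete, sum_const, card_univ, Fintype.card_fin, smul_eq_mul] at h
      have e1 : zd (2 * (l + 2)) = (l + 2) * (l + 1) := by
        unfold zd
        rw [show 2 * (l + 2) / 2 = l + 2 by omega, show (2 * (l + 2) - 1) / 2 = l + 1 by omega]
      have e2 : zd (2 * (l + 1) + 1) = (l + 1) * (l + 1) := by
        unfold zd
        rw [show (2 * (l + 1) + 1) / 2 = l + 1 by omega,
          show (2 * (l + 1) + 1 - 1) / 2 = l + 1 by omega]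
      rw [e2, show 2 * (l + 1) + 1 - 1 = 2 * (l + 1) by omega] at h
      rw [e1]
      refine Nat.le_of_mul_le_mul_left ?_ (show 0 < 2 * (l + 1) by omega)
      refine le_trans (le_of_eq ?_) h
      ring
  · exact bound_odd m k pa pb hpa hpb hdis page hblock

end P040.TwoBlock
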