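import Mathlib

/-!
# P040: the tent inequality for two words of odd length

For words `x, y` of length `2K+1`, the number of pairs `i < j` with `x i = y j`, plus the
disagreements `x i ≠ y i` weighted by `min i (2K - i)`, is at least `K²`.
-/

open Finset

namespace P040.TwoBlock

/-- tent weight -/
def tent (K i : ℕ) : ℕ := min i (2 * K - i)

/-- `1` for true -/
def ind (p : Prop) [Decidable p] : ℕ := if p then 1 else 0

lemma ind_add_ind_not (p : Prop) [Decidable p] : ind p + ind (¬ p) = 1 := by
  by_cases h : p <;> simp [ind, h]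

/-- number of later letters with value `c` -/
def later (y : ℕ → Bool) (i L : ℕ) (c : Bool) : ℕ := ∑ j ∈ Ico (i + 1) L, ind (c = y j)

lemma later_succ (y : ℕ → Bool) (i L : ℕ) (c : Bool) :
    later y (i + 1) (L + 1) c = later (fun j => y (j + 1)) i L c := by
  unfold later
  rw [← sum_Ico_add' (fun j => ind (c = y j)) (i + 1) L 1]

/-- occurrences of `c` among the first `L` letters -/
def occ (y : ℕ → Bool) (L : ℕ) (c : Bool) : ℕ := ∑ j ∈ range L, ind (c = y j)

lemma occ_succ (y : ℕ → Bool) (L : ℕ) (c : Bool) :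
    occ y (L + 1) c = occ (fun j => y (j + 1)) L c + ind (c = y 0) := by
  unfold occ; rw [sum_range_succ']

lemma occ_add (y : ℕ → Bool) (L : ℕ) : occ y L true + occ y L false = L := by
  induction L with
  | zero => simp [occ]
  | succ L ih =>
    have h1 : ∀ c, occ y (L + 1) c = occ y L c + ind (c = y L) := fun c => by
      unfold occ; rw [sum_range_succ]
    rw [h1, h1]; cases y L <;> simp [ind] <;> omega

lemma later_zero (y : ℕ → Bool) (L : ℕ) (c : Bool) :
    later y 0 (L + 1) c = occ (fun j => y (j + 1)) L c := by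
  unfold later occ
  rw [range_eq_Ico, ← sum_Ico_add' (fun j => ind (c = y j)) 0 L 1]

/-- summing over letters a function of the number of later equal letters -/
lemma sum_later (f : ℕ → ℤ) : ∀ (L : ℕ) (y : ℕ → Bool),
    ∑ i ∈ range L, f (later y i L (y i))
      = ∑ t ∈ range (occ y L true), f t + ∑ t ∈ range (occ y L false), f t := by
  intro L
  induction L with
  | zero => intro y; simp [occ]
  | succ L ih =>
    intro y
    rw [sum_range_succ', later_zero]
    simp only [later_succ]
    rw [ih (fun j => y (j + 1)), occ_succ, occ_succ]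
    cases hy : y 0 <;> simp [ind, sum_range_succ] <;> ring

/-- truncated weight of a letter -/
def val (K t : ℕ) : ℤ := (t : ℤ) - 2 * max 0 ((t : ℤ) - K)

lemma sum_val_low (K : ℕ) : ∀ p : ℕ, p ≤ K + 1 →
    2 * ∑ t ∈ range p, val K t = (p : ℤ) * ((p : ℤ) - 1) := by
  intro p
  induction p with
  | zero => simp
  | succ p ih =>
    intro h
    have h2 : max (0 : ℤ) ((p : ℤ) - K) = 0 := max_eq_left (by omega)
    rw [sum_range_succ, mul_add, ih (by omega)]
    simp only [val, h2]; push_cast; ring

lemma sum_val_high (K : ℕ) : ∀ e : ℕ,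
    2 * ∑ t ∈ range (K + e), val K t
      = ((K : ℤ) + e) * ((K : ℤ) + e - 1) - 2 * ((e : ℤ) * ((e : ℤ) - 1)) := by
  intro e
  induction e with
  | zero => simpa using sum_val_low K K (by omega)
  | succ e ih =>
    have h2 : max (0 : ℤ) (((K + e : ℕ) : ℤ) - K) = e := by
      rw [max_eq_right] <;> push_cast <;> omega
    rw [← Nat.add_assoc, sum_range_succ, mul_add, ih]
    simp only [val, h2]; push_cast; ring

lemma sum_val_pair (K p q : ℕ) (h : p + q = 2 * K + 1) :
    (K : ℤ) * K ≤ ∑ t ∈ range p, val K t + ∑ t ∈ range q, val K t := by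
  rcases le_total q p with hle | hle
  · obtain ⟨e, rfl⟩ : ∃ e, p = K + e := ⟨p - K, by omega⟩
    have h1 := sum_val_high K e
    have h2 := sum_val_low K q (by omega)
    have h3 : (q : ℤ) = K + 1 - e := by omega
    rw [h3] at h2
    nlinarith
  · obtain ⟨e, rfl⟩ : ∃ e, q = K + e := ⟨q - K, by omega⟩
    have h1 := sum_val_high K e
    have h2 := sum_val_low K p (by omega)
    have h3 : (p : ℤ) = K + 1 - e := by omega
    rw [h3] at h2
    nlinarith

/-- The tent inequality. -/
theorem tent_bound (K : ℕ) (x y : ℕ → Bool) :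
    K * K ≤ (∑ i ∈ range (2 * K + 1), later y i (2 * K + 1) (x i))
      + ∑ i ∈ range (2 * K + 1), tent K i * ind (x i ≠ y i) := by
  have key : ∀ i ∈ range (2 * K + 1),
      val K (later y i (2 * K + 1) (y i))
        ≤ ((later y i (2 * K + 1) (x i) + tent K i * ind (x i ≠ y i) : ℕ) : ℤ) := by
    intro i hi
    rw [mem_range] at hi
    have htot : later y i (2 * K + 1) true + later y i (2 * K + 1) false = 2 * K - i := by
      unfold later
      rw [← sum_add_distrib]
      have : ∀ j ∈ Ico (i + 1) (2 * K + 1), ind (true = y j) + ind (false = y j) = 1 := by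
        intro j _; cases y j <;> simp [ind]
      rw [sum_congr rfl this]; simp
    unfold val tent
    cases hx : x i <;> cases hy : y i <;> simp [ind] <;> omega
  have h := sum_le_sum key
  rw [sum_later] at h
  have h2 := sum_val_pair K _ _ (occ_add y (2 * K + 1))
  have h3 : ((K * K : ℕ) : ℤ) ≤ ((∑ i ∈ range (2 * K + 1),
      (later y i (2 * K + 1) (x i) + tent K i * ind (x i ≠ y i)) : ℕ) : ℤ) := by
    rw [Nat.cast_mul, Nat.cast_sum]; exact h2.trans h
  rw [← sum_add_distrib]
  exact_mod_cast h3

end P040.TwoBlock
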