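import Vale.Agent.P040.TwoBlock.Tent

/-!
# P040: transport between two gaps

Coordinates: `n = 2k+1` vertices `b` on a circle in the order `0, …, n-1`, a vertex `a` in the
gap before `0` and a vertex `a'` in the gap before `s ≤ k`.
-/

open Finset

namespace P040.TwoBlock

/-- Weighted comparison over the transport: the short arc takes every ordered pair once, the
long arc every offset `r ≤ s` once and in addition the tent of parameter `k - s` at offset `s`.
The first argument of `F` is a position seen from the first vertex, the second from the other. -/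
def slotSum (k s : ℕ) (F : ℕ → ℕ → ℕ) : ℕ :=
  (∑ i ∈ range s, ∑ j ∈ range i, F i j)
  + (∑ r ∈ range s, ∑ i ∈ range (2 * k + 1 - s - (r + 1)), F (s + i) (s + i + (r + 1)))
  + ∑ i ∈ range (2 * (k - s) + 1), tent (k - s) i * F (s + i) (s + i + s)

/-- Same-coloured interleaving pairs in these coordinates. -/
def pairCount (k s : ℕ) (F : ℕ → ℕ → ℕ) : ℕ :=
  (∑ i ∈ range s, ∑ j ∈ range i, F i j)
  + ∑ i ∈ range (2 * k + 1 - s), ∑ j ∈ Ico (i + 1) (2 * k + 1 - s), F (s + i) (s + j)

lemma slotSum_add (k s : ℕ) (F G : ℕ → ℕ → ℕ) :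
    slotSum k s (fun i j => F i j + G i j) = slotSum k s F + slotSum k s G := by
  simp only [slotSum, sum_add_distrib, mul_add]; ring

lemma two_mul_tri : ∀ s : ℕ, 2 * (∑ i ∈ range s, i) + s = s * s := by
  intro s
  induction s with
  | zero => simp
  | succ s ih => rw [sum_range_succ]; nlinarith

/-- Long arc: split the pairs according to their offset. -/
lemma sum_offsets (G : ℕ → ℕ → ℕ) : ∀ s M : ℕ, s ≤ M →
    ∑ i ∈ range M, ∑ j ∈ Ico (i + 1) M, G i j
      = (∑ r ∈ range s, ∑ i ∈ range (M - (r + 1)), G i (i + (r + 1)))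
        + ∑ i ∈ range (M - s), ∑ j ∈ Ico (i + 1) (M - s), G i (j + s) := by
  intro s
  induction s with
  | zero => intro M _; simp
  | succ s ih =>
    intro M hM
    rw [ih M (by omega), sum_range_succ, add_assoc]
    congr 1
    obtain ⟨L, hL⟩ : ∃ L, M - s = L + 1 := ⟨M - s - 1, by omega⟩
    have hL' : M - (s + 1) = L := by omega
    rw [hL, hL', sum_range_succ]
    simp only [Ico_self, sum_empty, add_zero]
    rw [← sum_add_distrib]
    refine sum_congr rfl fun i hi => ?_
    rw [mem_range] at hi
    rw [sum_eq_sum_Ico_succ_bot (by omega : i + 1 < L + 1),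
      ← sum_Ico_add' (fun j => G i (j + s)) (i + 1) L 1]
    congr 1
    · rw [show i + (s + 1) = i + 1 + s by omega]
    · exact sum_congr rfl fun j _ => by rw [show j + (s + 1) = j + 1 + s by omega]

/-- The pairwise inequality: `k² ≤ crossings + disagreements over the transport`. -/
theorem pair_bound (k s : ℕ) (hs : s ≤ k) (x y : ℕ → Bool) :
    k * k ≤ pairCount k s (fun i j => ind (x i = y j))
      + slotSum k s (fun i j => ind (x i ≠ y j)) := by
  obtain ⟨K, rfl⟩ : ∃ K, k = s + K := ⟨k - s, by omega⟩
  have hM : 2 * (s + K) + 1 - s = s + (2 * K + 1) := by omega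
  have hK : s + K - s = K := by omega
  unfold pairCount slotSum
  rw [hM, hK, sum_offsets (fun i j => ind (x (s + i) = y (s + j))) s _ (by omega)]
  have hcan : s + (2 * K + 1) - s = 2 * K + 1 := by omega
  rw [hcan]
  set A := ∑ i ∈ range s, ∑ j ∈ range i, ind (x i = y j) with hA
  set A' := ∑ i ∈ range s, ∑ j ∈ range i, ind (x i ≠ y j) with hA'
  set B := ∑ r ∈ range s, ∑ i ∈ range (s + (2 * K + 1) - (r + 1)),
    ind (x (s + i) = y (s + (i + (r + 1)))) with hB
  set B' := ∑ r ∈ range s, ∑ i ∈ range (s + (2 * K + 1) - (r + 1)),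
    ind (x (s + i) ≠ y (s + i + (r + 1))) with hB'
  have e1 : A + A' = ∑ i ∈ range s, i := by
    rw [hA, hA', ← sum_add_distrib]
    refine sum_congr rfl fun i _ => ?_
    rw [← sum_add_distrib]; simp [ind_add_ind_not]
  have e2 : B + B' = ∑ r ∈ range s, (s + (2 * K + 1) - (r + 1)) := by
    rw [hB, hB', ← sum_add_distrib]
    refine sum_congr rfl fun r _ => ?_
    rw [← sum_add_distrib]
    simp [← Nat.add_assoc, ind_add_ind_not]
  have e3 : (∑ r ∈ range s, (s + (2 * K + 1) - (r + 1))) + ((∑ i ∈ range s, i) + s)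
      = s * (s + (2 * K + 1)) := by
    have : ∀ r ∈ range s, (s + (2 * K + 1) - (r + 1)) + (r + 1) = s + (2 * K + 1) := by
      intro r hr; rw [mem_range] at hr; omega
    have h := sum_congr rfl this
    rw [sum_add_distrib, sum_add_distrib] at h
    simpa using h
  have e4 := two_mul_tri s
  have e5 := tent_bound K (fun i => x (s + i)) (fun j => y (s + j + s))
  simp only [later] at e5
  have e6 : ∀ i ∈ range (2 * K + 1),
      (∑ j ∈ Ico (i + 1) (2 * K + 1), ind (x (s + i) = y (s + (j + s))))
      = ∑ j ∈ Ico (i + 1) (2 * K + 1), ind (x (s + i) = y (s + j + s)) :=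
    fun i _ => sum_congr rfl fun j _ => by rw [Nat.add_assoc]
  rw [sum_congr rfl e6]
  nlinarith

/-- first marginal of the offsets -/
lemma offsets_fst (g : ℕ → ℕ) (M : ℕ) : ∀ s,
    ∑ r ∈ range s, ∑ i ∈ range (M - (r + 1)), g i
      = ∑ i ∈ range M, min s (M - 1 - i) * g i := by
  intro s
  induction s with
  | zero => simp
  | succ s ih =>
    rw [sum_range_succ, ih]
    have h : ∑ i ∈ range (M - (s + 1)), g i = ∑ i ∈ range M, ind (i + (s + 1) < M) * g i := by
      rw [← sum_subset (range_mono (by omega : M - (s + 1) ≤ M))]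
      · exact sum_congr rfl fun i hi => by rw [mem_range] at hi; simp [ind]; omega
      · intro i hi hi'; simp only [mem_range] at hi hi'; simp [ind]; omega
    rw [h, ← sum_add_distrib]
    refine sum_congr rfl fun i hi => ?_
    rw [mem_range] at hi
    rw [← add_mul]; congr 1
    by_cases hc : i + (s + 1) < M <;> simp [ind, hc] <;> omega

/-- second marginal of the offsets -/
lemma offsets_snd (g : ℕ → ℕ) (M : ℕ) : ∀ s,
    ∑ r ∈ range s, ∑ i ∈ range (M - (r + 1)), g (i + (r + 1))
      = ∑ i ∈ range M, min s i * g i := by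
  intro s
  induction s with
  | zero => simp
  | succ s ih =>
    rw [sum_range_succ, ih]
    have h : ∑ i ∈ range (M - (s + 1)), g (i + (s + 1)) = ∑ i ∈ range M, ind (s < i) * g i := by
      have h' : ∑ i ∈ range M, ind (s < i) * g i = ∑ i ∈ Ico (s + 1) M, g i := by
        rw [show Ico (s + 1) M = (range M).filter (fun i => s < i) by ext i; simp; omega,
          sum_filter]
        refine sum_congr rfl fun i _ => ?_
        by_cases hc : s < i <;> simp [ind, hc]
      rw [h', sum_Ico_eq_sum_range]
      exact sum_congr rfl fun i _ => by rw [Nat.add_comm]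
    rw [h, ← sum_add_distrib]
    refine sum_congr rfl fun i hi => ?_
    rw [← add_mul]; congr 1
    by_cases hc : s < i <;> simp [ind, hc] <;> omega

lemma short_snd (g : ℕ → ℕ) : ∀ s,
    ∑ i ∈ range s, ∑ j ∈ range i, g j = ∑ j ∈ range s, (s - 1 - j) * g j := by
  intro s
  induction s with
  | zero => simp
  | succ s ih =>
    rw [sum_range_succ, ih, ← sum_add_distrib]
    conv_rhs => rw [sum_range_succ]
    simp only [Nat.add_sub_cancel, Nat.sub_self, zero_mul, add_zero]
    refine sum_congr rfl fun j hj => ?_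
    rw [mem_range] at hj
    rw [← add_one_mul]; congr 1; omega

/-- The first marginal is the tent of parameter `k`. -/
theorem slotSum_fst (k s : ℕ) (hs : s ≤ k) (f : ℕ → ℕ) :
    slotSum k s (fun i _ => f i) = ∑ i ∈ range (2 * k + 1), tent k i * f i := by
  unfold slotSum
  rw [offsets_fst (fun i => f (s + i)) (2 * k + 1 - s) s]
  have h1 : ∑ i ∈ range (2 * (k - s) + 1), tent (k - s) i * f (s + i)
      = ∑ i ∈ range (2 * k + 1 - s),
          (if i < 2 * (k - s) + 1 then tent (k - s) i * f (s + i) else 0) := by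
    rw [← sum_subset (range_mono (by omega : 2 * (k - s) + 1 ≤ 2 * k + 1 - s))]
    · exact sum_congr rfl fun i hi => by rw [mem_range] at hi; rw [if_pos hi]
    · intro i _ hi'; rw [mem_range] at hi'; rw [if_neg hi']
  rw [h1, show range (2 * k + 1) = range (s + (2 * k + 1 - s)) by congr 1; omega,
    sum_range_add, add_assoc, ← sum_add_distrib]
  congr 1
  · refine sum_congr rfl fun i hi => ?_
    rw [mem_range] at hi
    simp only [sum_const, card_range, smul_eq_mul, tent]
    congr 1; omega
  · refine sum_congr rfl fun i hi => ?_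
    rw [mem_range] at hi
    split_ifs <;> simp only [← add_mul, add_zero, tent] <;> congr 1 <;> omega

/-- The second marginal is the tent of parameter `k`, rotated by `s`. -/
theorem slotSum_snd (k s : ℕ) (hs : s ≤ k) (f : ℕ → ℕ) :
    slotSum k s (fun _ j => f j)
      = ∑ i ∈ range (2 * k + 1), tent k i * f ((s + i) % (2 * k + 1)) := by
  unfold slotSum
  rw [short_snd f s]
  have h0 : ∑ r ∈ range s, ∑ i ∈ range (2 * k + 1 - s - (r + 1)), f (s + i + (r + 1))
      = ∑ i ∈ range (2 * k + 1 - s), min s i * f (s + i) := by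
    rw [← offsets_snd (fun i => f (s + i)) (2 * k + 1 - s) s]
    exact sum_congr rfl fun r _ => sum_congr rfl fun i _ => by rw [Nat.add_assoc]
  have h1 : ∑ i ∈ range (2 * (k - s) + 1), tent (k - s) i * f (s + i + s)
      = ∑ i ∈ range (2 * k + 1 - s),
          (if s ≤ i then tent (k - s) (i - s) * f (s + i) else 0) := by
    rw [← sum_filter, show (range (2 * k + 1 - s)).filter (fun i => s ≤ i)
      = Ico s (2 * k + 1 - s) by ext i; simp; omega, sum_Ico_eq_sum_range]
    refine sum_congr (by congr 1; omega) fun i _ => ?_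
    rw [Nat.add_sub_cancel_left, show s + (s + i) = s + i + s by omega]
  rw [h0, h1, show range (2 * k + 1) = range (2 * k + 1 - s + s) by congr 1; omega,
    sum_range_add, add_assoc, ← sum_add_distrib, add_comm]
  congr 1
  · refine sum_congr rfl fun i hi => ?_
    rw [mem_range] at hi
    rw [Nat.mod_eq_of_lt (by omega)]
    split_ifs <;> simp only [← add_mul, add_zero, tent] <;> congr 1 <;> omega
  · refine sum_congr rfl fun i hi => ?_
    rw [mem_range] at hi
    have : (s + (2 * k + 1 - s + i)) % (2 * k + 1) = i := by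
      rw [show s + (2 * k + 1 - s + i) = i + (2 * k + 1) by omega, Nat.add_mod_right,
        Nat.mod_eq_of_lt (by omega)]
    rw [this]; congr 1; simp only [tent]; omega

lemma sum_tent : ∀ k : ℕ, ∑ i ∈ range (2 * k + 1), tent k i = k * k := by
  intro k
  have h := two_mul_tri k
  have e1 : ∑ i ∈ range (k + 1), tent k i = (∑ i ∈ range k, i) + k := by
    rw [sum_range_succ]
    congr 1
    · exact sum_congr rfl fun i hi => by rw [mem_range] at hi; simp [tent]; omega
    · simp [tent]; omega
  have e2 : ∑ i ∈ range k, tent k (k + 1 + i) = ∑ i ∈ range k, i := by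
    rw [← sum_range_reflect (fun i => i) k]
    exact sum_congr rfl fun i hi => by rw [mem_range] at hi; simp [tent]; omega
  rw [show 2 * k + 1 = k + 1 + k by omega, sum_range_add, e1, e2]; omega

/-- Total weight `k²`. -/
theorem slotSum_one (k s : ℕ) (hs : s ≤ k) : slotSum k s (fun _ _ => 1) = k * k := by
  rw [slotSum_fst k s hs (fun _ => 1)]; simp [sum_tent]

end P040.TwoBlock
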